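import Vale.Agent.P126.H584.Main

/-!
# P126: the tilting bound for functions of range `R`, long scale steps, lacunary sums
-/

open Finset Real Pointwise

namespace Vale.Agent.P126.N

section
variable {ι : Type*} [Fintype ι]

theorem log_Zf_le_meanR [Nonempty ι] {ν : ι → ℝ} (hν : IsPrior ν) {f : ι → ℝ} {R : ℝ}
    (hR : 0 < R) (hf : ∀ i, |f i| ≤ R) {β : ℝ} (hβ : 0 ≤ β) (hβ' : β * R ≤ 1) :
    Real.log (Zf ν (β • f)) ≤ β * (∑ i, ν i * f i) + β ^ 2 * R ^ 2 := by
  have hf' : ∀ i, |((4 / R) • f) i| ≤ 4 := by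
    intro i
    simp only [Pi.smul_apply, smul_eq_mul, abs_mul]
    rw [abs_of_pos (by positivity : (0 : ℝ) < 4 / R)]
    calc 4 / R * |f i| ≤ 4 / R * R := mul_le_mul_of_nonneg_left (hf i) (by positivity)
      _ = 4 := by field_simp
  have h := log_Zf_le_mean hν hf' (β := β * R / 4) (by positivity) (by linarith)
  have e1 : (β * R / 4) • ((4 / R) • f) = β • f := by
    rw [smul_smul]; congr 1; field_simp
  have e2 : β * R / 4 * ∑ i, ν i * ((4 / R) • f) i = β * ∑ i, ν i * f i := by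
    rw [Finset.mul_sum, Finset.mul_sum]
    refine Finset.sum_congr rfl fun i _ => ?_
    simp only [Pi.smul_apply, smul_eq_mul]; field_simp
  rw [e1, e2] at h
  calc _ ≤ _ := h
    _ = _ := by ring

theorem mean_closeR [Nonempty ι] {F : Set (ι → ℝ)} {ν : ι → ℝ} (hν : IsPrior ν) {R : ℝ}
    (hR : 1 ≤ R) (hFR : ∀ f ∈ F, ∀ i, |f i| ≤ R) {δ r : ℝ} (hδ : δ ≤ 1 / 8)
    (hr : r ≤ 1 / (64 * R ^ 2)) {x : ι}
    (h : Bd F δ ν x r) {f : ι → ℝ} (hf : f ∈ F) : f x - ∑ i, ν i * f i < 1 / 2 := by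
  have hR0 : 0 < R := by linarith
  set β : ℝ := 1 / (8 * R ^ 2) with hβ
  have hβ0 : 0 < β := by positivity
  have hβR : β * R ^ 2 = 1 / 8 := by rw [hβ]; field_simp
  have h1 := h β hβ0.le f hf
  have hβ1 : β * R ≤ 1 := by
    have : β * R ≤ β * R ^ 2 := by
      apply mul_le_mul_of_nonneg_left _ hβ0.le
      nlinarith
    linarith
  have h2 := log_Zf_le_meanR hν hR0 (hFR f hf) hβ0.le hβ1
  have h3 : β ^ 2 * R ^ 2 = β * (1 / 8) := by rw [← hβR]; ring
  have h4 : r ≤ β * (1 / 8) := by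
    refine hr.trans (le_of_eq ?_)
    rw [hβ]; field_simp; norm_num
  have h5 : β * (f x - ∑ i, ν i * f i) ≤ β * (3 / 8) := by
    have : β * δ ≤ β * (1 / 8) := mul_le_mul_of_nonneg_left hδ hβ0.le
    nlinarith
  have h6 := le_of_mul_le_mul_left h5 hβ0
  linarith

/-- The tilting bound for a class of functions bounded by `R`. -/
theorem coreR [Nonempty ι] {F : Set (ι → ℝ)} (hF : Convex ℝ F)
    (hsymm : ∀ f ∈ F, -f ∈ F) {R : ℝ} (hR : 1 ≤ R) (hFR : ∀ f ∈ F, ∀ i, |f i| ≤ R)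
    (hsep : ∀ i j : ι, i ≠ j → ∃ f ∈ F, 1 ≤ f i - f j)
    {G : Finset (ι → ℝ)} (hGF : ∀ g ∈ G, g ∈ F) {ε : ℝ} (hε : 0 < ε)
    (hG : ∀ f ∈ F, ∃ g ∈ G, ∀ i, |g i - f i| ≤ ε)
    {m J : ℕ} (hm : 0 < m) (hεJ : 3 * ε * J ≤ 1 / 8)
    (hmJ : 64 * R ^ 2 * Real.log (Fintype.card ι) ≤ (m : ℝ) ^ J) :
    Fintype.card ι ≤ (1 + G.card * (⌊2 * R / ε⌋₊ + 1)) ^ (m * J) := by
  classical
  let V : Finset ℝ := (Finset.range (⌊2 * R / ε⌋₊ + 1)).image fun k : ℕ => -R + k * ε
  have hVcard : V.card ≤ ⌊2 * R / ε⌋₊ + 1 := by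
    calc V.card ≤ (Finset.range (⌊2 * R / ε⌋₊ + 1)).card := Finset.card_image_le
      _ = _ := Finset.card_range _
  have hV : ∀ g ∈ G, ∀ i, ∃ v ∈ V, v ≤ g i ∧ g i ≤ v + ε := by
    intro g hg i
    have hb := abs_le.1 (hFR g (hGF g hg) i)
    have h0 : 0 ≤ (g i + R) / ε := div_nonneg (by linarith only [hb]) hε.le
    refine ⟨-R + (⌊(g i + R) / ε⌋₊ : ℕ) * ε, ?_, ?_, ?_⟩
    · refine Finset.mem_image.2 ⟨⌊(g i + R) / ε⌋₊, Finset.mem_range.2 ?_, rfl⟩
      refine Nat.lt_succ_of_le (Nat.floor_le_floor ?_)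
      exact div_le_div_of_nonneg_right (by linarith only [hb]) hε.le
    · have := Nat.floor_le h0
      have h2 : (⌊(g i + R) / ε⌋₊ : ℝ) * ε ≤ (g i + R) / ε * ε :=
        mul_le_mul_of_nonneg_right this hε.le
      rw [div_mul_cancel₀ _ (ne_of_gt hε)] at h2
      linarith only [h2]
    · have := Nat.lt_floor_add_one ((g i + R) / ε)
      have h2 : (g i + R) / ε * ε ≤ ((⌊(g i + R) / ε⌋₊ : ℝ) + 1) * ε :=
        mul_le_mul_of_nonneg_right this.le hε.le
      rw [div_mul_cancel₀ _ (ne_of_gt hε)] at h2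
      linarith only [h2]
  obtain ⟨N, h1, h2, h3⟩ := family_all hF hGF hε.le hG hV hm J
  have hm' : (0 : ℝ) < (m : ℝ) ^ J := by positivity
  have hR0 : 0 < R := by linarith
  have hr : Real.log (Fintype.card ι) / (m : ℝ) ^ J ≤ 1 / (64 * R ^ 2) := by
    rw [div_le_div_iff₀ hm' (by positivity)]; linarith only [hmJ]
  choose φ hφN hφB using h3
  have hinj : Function.Injective φ := by
    intro x y hxy
    by_contra hne
    obtain ⟨f, hf, hfxy⟩ := hsep x y hne
    have a1 := mean_closeR (h1 _ (hφN x)) hR hFR hεJ hr (hφB x) hf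
    have hy : Bd F (3 * ε * J) (φ x) y (Real.log (Fintype.card ι) / (m : ℝ) ^ J) := by
      rw [hxy]; exact hφB y
    have a2 := mean_closeR (h1 _ (hφN x)) hR hFR hεJ hr hy (hsymm f hf)
    simp only [Pi.neg_apply, mul_neg, Finset.sum_neg_distrib] at a2
    linarith only [hfxy, a1, a2]
  have hcard : Fintype.card ι ≤ N.card := by
    rw [← Finset.card_univ]
    exact Finset.card_le_card_of_injOn φ (fun x _ => hφN x) (hinj.injOn)
  calc Fintype.card ι ≤ N.card := hcard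
    _ ≤ (1 + G.card * V.card) ^ (m * J) := h2
    _ ≤ _ := by (clear * - hVcard; gcongr)

end

variable {n : ℕ}

/-- One long step between scales. -/
theorem stepA {K L : Set (EuclideanSpace ℝ (Fin n))} (hK : IsSymmBody K) (hL : IsSymmBody L)
    {A : ℝ} (hA : 0 < A) {t₁ t₂ : Finset (EuclideanSpace ℝ (Fin n))} (h1 : Cov t₁ (A⁻¹ • K) L)
    (h2 : Cov t₂ ((2 : ℝ) • K ∩ (2 * A) • L) L) :
    ∃ t : Finset (EuclideanSpace ℝ (Fin n)), Cov t K L ∧ t.card ≤ t₁.card * t₂.card := by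
  classical
  have hz : ∀ y : EuclideanSpace ℝ (Fin n), ∃ z : EuclideanSpace ℝ (Fin n),
      (∃ a ∈ K, A⁻¹ • a - y ∈ L) → z ∈ K ∧ A⁻¹ • z - y ∈ L := by
    intro y
    by_cases h : ∃ a ∈ K, A⁻¹ • a - y ∈ L
    · obtain ⟨a, ha, hay⟩ := h
      exact ⟨a, fun _ => ⟨ha, hay⟩⟩
    · exact ⟨0, fun h' => absurd h' h⟩
  choose z hz using hz
  refine ⟨(t₁ ×ˢ t₂).image fun p => z p.1 + p.2, ?_, ?_⟩
  · intro a ha
    obtain ⟨y, hy, hay⟩ := h1 _ (Set.smul_mem_smul_set ha)
    obtain ⟨hzA, hzy⟩ := hz y ⟨a, ha, hay⟩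
    have hmem : a - z y ∈ (2 : ℝ) • K ∩ (2 * A) • L := by
      constructor
      · refine ⟨(1 / 2 : ℝ) • (a - z y), hK.half_sub ha hzA, ?_⟩
        simp only [smul_smul]; norm_num
      · refine ⟨(1 / 2 : ℝ) • ((A⁻¹ • a - y) - (A⁻¹ • z y - y)), hL.half_sub hay hzy, ?_⟩
        simp only [smul_smul]
        have e : (A⁻¹ • a - y) - (A⁻¹ • z y - y) = A⁻¹ • (a - z y) := by
          rw [smul_sub]; abel
        rw [e, smul_smul]
        have e2 : 2 * A * (1 / 2) * A⁻¹ = 1 := by field_simp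
        rw [e2, one_smul]
    obtain ⟨w, hw, haw⟩ := h2 _ hmem
    refine ⟨z y + w, Finset.mem_image.2 ⟨(y, w), Finset.mem_product.2 ⟨hy, hw⟩, rfl⟩, ?_⟩
    have e : a - (z y + w) = a - z y - w := by abel
    rw [e]; exact haw
  · calc _ ≤ (t₁ ×ˢ t₂).card := Finset.card_image_le
      _ = _ := Finset.card_product _ _

theorem telescopingA {K L : Set (EuclideanSpace ℝ (Fin n))} (hK : IsSymmBody K)
    (hL : IsSymmBody L) {A : ℝ} (hA : 0 < A) {s : ℕ → Finset (EuclideanSpace ℝ (Fin n))}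
    (hs : ∀ j, Cov (s j) ((2 : ℝ) • (A⁻¹ ^ j • K) ∩ (2 * A) • L) L) (M : ℕ)
    {t₀ : Finset (EuclideanSpace ℝ (Fin n))} (h0 : Cov t₀ (A⁻¹ ^ M • K) L) :
    ∃ t : Finset (EuclideanSpace ℝ (Fin n)), Cov t K L ∧
      t.card ≤ t₀.card * ∏ j ∈ Finset.range M, (s j).card := by
  induction M generalizing t₀ with
  | zero => exact ⟨t₀, by simpa using h0, by simp⟩
  | succ M ih =>
    have e : A⁻¹ ^ (M + 1) • K = A⁻¹ • (A⁻¹ ^ M • K) := by
      rw [smul_smul, pow_succ']
    rw [e] at h0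
    obtain ⟨t₁, h1, h2⟩ := stepA (hK.smul (by positivity)) hL hA h0 (hs M)
    obtain ⟨t, h3, h4⟩ := ih h1
    refine ⟨t, h3, h4.trans ?_⟩
    rw [Finset.prod_range_succ]
    calc t₁.card * ∏ j ∈ Finset.range M, (s j).card
        ≤ (t₀.card * (s M).card) * ∏ j ∈ Finset.range M, (s j).card := by
          (clear * - h2; gcongr)
      _ = _ := by ring

theorem exists_pow_subsetA {K L : Set (EuclideanSpace ℝ (Fin n))} (hK : IsSymmBody K)
    (hL : IsSymmBody L) {A : ℝ} (hA : 2 ≤ A) :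
    ∃ M₀ : ℕ, ∀ M, M₀ ≤ M → Cov {0} (A⁻¹ ^ M • K) L := by
  obtain ⟨M₀, h⟩ := exists_pow_subset hK hL
  have hA0 : 0 < A := by linarith
  refine ⟨M₀, fun M hM => ?_⟩
  rintro _ ⟨x, hx, rfl⟩
  have h1 : |(2 / A) ^ M| ≤ 1 := by
    rw [abs_of_pos (by positivity)]
    exact pow_le_one₀ (by positivity) ((div_le_one hA0).2 hA)
  have h2 := h M hM _ (Set.smul_mem_smul_set (hK.smul_mem_of_le hx h1))
  have e : (1 / 2 : ℝ) ^ M • ((2 / A) ^ M • x) = A⁻¹ ^ M • x := by
    rw [smul_smul, ← mul_pow]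
    congr 2
    field_simp
  rw [e] at h2
  exact h2

/-- the body `c P + θ Q` -/
def Bs (P Q : Set (EuclideanSpace ℝ (Fin n))) (c θ : ℝ) : Set (EuclideanSpace ℝ (Fin n)) :=
  {z | ∃ u ∈ P, ∃ v ∈ Q, z = c • u + θ • v}

/-- Lacunary sums of separated sets are separated. -/
theorem lacunaryA {P Q : Set (EuclideanSpace ℝ (Fin n))} (hP : IsSymmBody P)
    (hQ : IsSymmBody Q) {γ θ : ℝ} (hγ0 : 0 < γ) (hγ : γ ≤ 1 / 2) (hθ : 4 * γ ≤ θ) (I : ℕ)
    {c : ℝ} (hc : 0 < c) {T : ℕ → Finset (EuclideanSpace ℝ (Fin n))}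
    (hT : ∀ i, ∀ x ∈ T i, x ∈ Q) (hsep : ∀ i, Sep (Bs P Q (2 * c / γ ^ i) θ) (T i)) :
    ∃ W : Finset (EuclideanSpace ℝ (Fin n)), (∀ x ∈ W, x ∈ Q) ∧
      Sep (c • P) W ∧ W.card = ∏ i ∈ Finset.range I, (T i).card := by
  classical
  induction I generalizing c T with
  | zero =>
    refine ⟨{0}, by simpa only [mem_singleton, forall_eq] using hQ.zero_mem, ?_, by simp⟩
    intro x hx y hy hxy
    rw [Finset.mem_singleton] at hx hy
    exact absurd (hx.trans hy.symm) hxy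
  | succ I ih =>
    have hθ0 : 0 < θ := by linarith
    obtain ⟨W', hW1, hW2, hW3⟩ := ih (c := c / γ) (by positivity) (T := fun i => T (i + 1))
      (fun i => hT (i + 1)) (fun i => by
        have e : 2 * (c / γ) / γ ^ i = 2 * c / γ ^ (i + 1) := by
          rw [pow_succ]; field_simp
        rw [e]; exact hsep (i + 1))
    have h1γ : 0 < 1 - γ := by linarith only [hγ]
    let Φ : EuclideanSpace ℝ (Fin n) × EuclideanSpace ℝ (Fin n) → EuclideanSpace ℝ (Fin n) :=
      fun p => (1 - γ) • p.1 + γ • p.2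
    have key : ∀ p ∈ T 0 ×ˢ W', ∀ p' ∈ T 0 ×ˢ W', p ≠ p' → Φ p - Φ p' ∉ c • P := by
      rintro ⟨a, w⟩ hp ⟨a', w'⟩ hp' hne ⟨x, hx, hxe⟩
      obtain ⟨ha, hw⟩ := Finset.mem_product.1 hp
      obtain ⟨ha', hw'⟩ := Finset.mem_product.1 hp'
      simp only [Φ] at hxe ha hw ha' hw'
      by_cases haa : a = a'
      · subst haa
        have hww : w ≠ w' := fun h => hne (by rw [h])
        apply hW2 w hw w' hw' hww
        refine ⟨x, hx, ?_⟩
        have e1 : (1 - γ) • a + γ • w - ((1 - γ) • a + γ • w') = γ • (w - w') := by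
          rw [smul_sub]; abel
        rw [e1] at hxe
        have e2 : w - w' = γ⁻¹ • (γ • (w - w')) := by
          rw [smul_smul, inv_mul_cancel₀ hγ0.ne', one_smul]
        change (c / γ) • x = w - w'
        have hxe' : c • x = γ • (w - w') := hxe
        rw [e2, ← hxe', smul_smul]
        congr 1
        field_simp
      · apply hsep 0 a ha a' ha' haa
        refine ⟨(1 / (2 * (1 - γ))) • x, hP.smul_mem_of_le hx ?_,
          (2 * γ / (θ * (1 - γ))) • ((1 / 2 : ℝ) • (w' - w)),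
          hQ.smul_mem_of_le (hQ.half_sub (hW1 _ hw') (hW1 _ hw)) ?_, ?_⟩
        · rw [abs_of_pos (by positivity), div_le_one (by positivity)]
          linarith only [hγ]
        · rw [abs_of_pos (by positivity), div_le_one (by positivity)]
          nlinarith only [hθ, hθ0, hγ]
        · have e1 : (1 - γ) • (a - a') = c • x + γ • (w' - w) := by
            have hxe' : c • x = (1 - γ) • a + γ • w - ((1 - γ) • a' + γ • w') := hxe
            rw [hxe', smul_sub, smul_sub]; abel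
          have e2 : a - a' = (1 - γ)⁻¹ • ((1 - γ) • (a - a')) := by
            rw [smul_smul, inv_mul_cancel₀ h1γ.ne', one_smul]
          rw [e2, e1, smul_add, smul_smul, smul_smul, smul_smul, smul_smul, smul_smul]
          congr 2
          · field_simp
          · field_simp
    have h0mem : (0 : EuclideanSpace ℝ (Fin n)) ∈ c • P := ⟨0, hP.zero_mem, by simp⟩
    refine ⟨(T 0 ×ˢ W').image Φ, ?_, ?_, ?_⟩
    · intro x hx
      obtain ⟨p, hp, rfl⟩ := Finset.mem_image.1 hx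
      obtain ⟨ha, hw⟩ := Finset.mem_product.1 hp
      exact hQ.convex (hT 0 _ ha) (hW1 _ hw) h1γ.le hγ0.le (by ring)
    · intro x hx y hy hxy
      obtain ⟨p, hp, rfl⟩ := Finset.mem_image.1 hx
      obtain ⟨p', hp', rfl⟩ := Finset.mem_image.1 hy
      exact key p hp p' hp' (fun h => hxy (by rw [h]))
    · rw [Finset.card_image_of_injOn, Finset.card_product, hW3, Finset.prod_range_succ', mul_comm]
      intro p hp p' hp' hpp
      by_contra hne
      apply key p hp p' hp' hne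
      have : Φ p - Φ p' = 0 := sub_eq_zero.2 hpp
      rw [this]; exact h0mem

/-- Two residue classes of scales suffice when the steps have ratio `A` with `ε A ≥ 16`. -/
theorem lacunary_sumA {P Q : Set (EuclideanSpace ℝ (Fin n))} (hP : IsSymmBody P)
    (hQ : IsSymmBody Q) {ε A : ℝ} (hε : 0 < ε) (hA : 2 ≤ A) (hεA : 16 ≤ ε * A)
    {S : ℕ → Finset (EuclideanSpace ℝ (Fin n))} (hS : ∀ j, ∀ x ∈ S j, x ∈ Q)
    (hsep : ∀ j, Sep (Bs P Q (ε * A ^ j / 4) (ε / (4 * A))) (S j)) (hne : ∀ j, (S j).Nonempty)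
    (I : ℕ) :
    ∑ j ∈ Finset.range (2 * I), Real.log (S j).card ≤
      2 * Real.log (coveringNumber Q ((ε / 16) • P)) := by
  have hA0 : 0 < A := by linarith
  rw [sum_range_mul]
  have hterm : ∀ r ∈ Finset.range 2, ∑ i ∈ Finset.range I, Real.log (S (r + 2 * i)).card ≤
      Real.log (coveringNumber Q ((ε / 16) • P)) := by
    intro r _
    have hγ : 1 / A ^ 2 ≤ 1 / 2 := by
      apply one_div_le_one_div_of_le (by norm_num)
      nlinarith
    have hθ : 4 * (1 / A ^ 2) ≤ ε / (4 * A) := by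
      rw [mul_one_div, div_le_div_iff₀ (by positivity) (by positivity)]
      nlinarith
    obtain ⟨W, h1, h2, h3⟩ := lacunaryA hP hQ (γ := 1 / A ^ 2) (by positivity) hγ hθ I
      (c := ε / 8 * A ^ r) (by positivity) (T := fun i => S (r + 2 * i))
      (fun i => hS _) (fun i => by
        have e : 2 * (ε / 8 * A ^ r) / (1 / A ^ 2) ^ i = ε * A ^ (r + 2 * i) / 4 := by
          rw [pow_add, pow_mul, one_div, inv_pow]; field_simp; ring
        rw [e]; exact hsep _)
    have hcov : ∃ t : Finset (EuclideanSpace ℝ (Fin n)), Cov t Q ((ε / 16) • P) :=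
      exists_cov_of_compact hQ.compact (hP.smul (by positivity)).zero_mem_interior
    obtain ⟨t, ht1, ht2⟩ := exists_cov_eq hcov
    have hcard : W.card ≤ t.card := by
      refine sep_card_le (A := Q) (B := (ε / 8 * A ^ r) • P) (B' := (ε / 16) • P) ?_ h1 h2 ht1
      rintro _ ⟨b, hb, rfl⟩ _ ⟨b', hb', rfl⟩
      refine ⟨(1 / A ^ r : ℝ) • ((1 / 2 : ℝ) • (b - b')),
        hP.smul_mem_of_le (hP.half_sub hb hb') ?_, ?_⟩
      · rw [abs_of_pos (by positivity), div_le_one (by positivity)]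
        exact one_le_pow₀ (by linarith)
      · simp only [smul_smul, ← smul_sub]
        congr 1
        field_simp
        ring
    have hlog : ∑ i ∈ Finset.range I, Real.log (S (r + 2 * i)).card = Real.log (W.card) := by
      rw [h3]
      push_cast
      rw [Real.log_prod]
      intro i _
      have := Finset.card_pos.2 (hne (r + 2 * i))
      positivity
    rw [hlog, ← ht2]
    apply Real.log_le_log
    · rw [h3]
      push_cast
      apply Finset.prod_pos
      intro i _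
      have := Finset.card_pos.2 (hne (r + 2 * i))
      exact_mod_cast this
    · exact_mod_cast hcard
  calc _ ≤ ∑ r ∈ Finset.range 2, Real.log (coveringNumber Q ((ε / 16) • P)) :=
        Finset.sum_le_sum hterm
    _ = _ := by rw [Finset.sum_const, Finset.card_range, nsmul_eq_mul]; norm_num

end Vale.Agent.P126.N
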