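import Vale.Agent.N126.Core
import Mathlib.MeasureTheory.Measure.Lebesgue.EqHaar
import Mathlib.MeasureTheory.Measure.Haar.InnerProductSpace

/-!
# P126: the bound at one scale, and the volumetric bound
-/

open Finset Real Pointwise

namespace Vale.Agent.P126.N

variable {n : ℕ}

theorem core_applyR {L B : Set (EuclideanSpace ℝ (Fin n))} (hL : IsSymmBody L) {J : ℕ}
    (hJ : 2 ≤ J) {s : Finset (EuclideanSpace ℝ (Fin n))}
    (hs : ∀ x ∈ s, x ∈ (768 * J : ℝ) • L) (hsep : Sep L s)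
    (hne : s.Nonempty) {S : Finset (EuclideanSpace ℝ (Fin n))}
    (hS : ∀ x ∈ S, x ∈ polarBody L) (hcov : Cov S (polarBody L) B)
    (hB : ∀ x ∈ s, ∀ z ∈ B, |(inner ℝ x z : ℝ)| ≤ 1 / (24 * J))
    {m : ℕ} (hm : 0 < m) (hmJ : 64 * (768 * J : ℝ) ^ 2 * Real.log s.card ≤ (m : ℝ) ^ J) :
    s.card ≤ (1 + S.card * (36864 * J ^ 2 + 1)) ^ (m * J) := by
  classical
  have hJ0 : (0 : ℝ) < J := by positivity
  have hJ2 : (2 : ℝ) ≤ J := by exact_mod_cast hJ
  have : Nonempty s := hne.to_subtype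
  set ε : ℝ := 1 / (24 * J) with hε
  have hε0 : 0 < ε := by positivity
  let F : Set (s → ℝ) := {f | ∃ w ∈ polarBody L, f = evalOn s w}
  have hF : Convex ℝ F := by
    rintro _ ⟨w, hw, rfl⟩ _ ⟨w', hw', rfl⟩ a b ha hb hab
    refine ⟨a • w + b • w', polar_convex L hw hw' ha hb hab, ?_⟩
    ext i
    simp only [Pi.add_apply, Pi.smul_apply, evalOn, smul_eq_mul, inner_add_right,
      real_inner_smul_right]
  have hsymm : ∀ f ∈ F, -f ∈ F := by
    rintro _ ⟨w, hw, rfl⟩
    refine ⟨-w, hL.polar.symm w hw, ?_⟩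
    ext i
    simp only [Pi.neg_apply, evalOn, inner_neg_right]
  have hFR : ∀ f ∈ F, ∀ i, |f i| ≤ 768 * J := by
    rintro _ ⟨w, hw, rfl⟩ i
    obtain ⟨l, hl, hx2⟩ := hs i i.2
    simp only [evalOn]
    rw [← hx2]
    simp only [real_inner_smul_left]
    rw [abs_mul, abs_of_pos (by positivity : (0:ℝ) < 768 * J)]
    have := hL.abs_inner_le hl hw
    nlinarith only [this, hJ0]
  have hsep' : ∀ i j : s, i ≠ j → ∃ f ∈ F, 1 ≤ f i - f j := by
    intro i j hij
    have hij' : (i : EuclideanSpace ℝ (Fin n)) ≠ j := fun h => hij (Subtype.ext h)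
    obtain ⟨w, hw, hgt⟩ := exists_polar_gt hL (hsep i i.2 j j.2 hij')
    refine ⟨evalOn s w, ⟨w, hw, rfl⟩, ?_⟩
    simp only [evalOn]
    rw [inner_sub_left] at hgt
    exact hgt.le
  let G : Finset (s → ℝ) := S.image (evalOn s)
  have hGF : ∀ g ∈ G, g ∈ F := by
    intro g hg
    obtain ⟨w, hw, rfl⟩ := Finset.mem_image.1 hg
    exact ⟨w, hS w hw, rfl⟩
  have hG : ∀ f ∈ F, ∃ g ∈ G, ∀ i, |g i - f i| ≤ ε := by
    rintro _ ⟨w, hw, rfl⟩
    obtain ⟨a, ha, hwa⟩ := hcov w hw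
    refine ⟨evalOn s a, Finset.mem_image.2 ⟨a, ha, rfl⟩, fun i => ?_⟩
    have := hB i i.2 _ hwa
    simp only [evalOn]
    rw [inner_sub_right, abs_sub_comm] at this
    exact this
  have hεJ : 3 * ε * J ≤ 1 / 8 := by
    rw [hε]; field_simp; norm_num
  have hcard : Fintype.card s = s.card := Fintype.card_coe s
  have := coreR hF hsymm (R := 768 * J) (by linarith) hFR hsep' hGF hε0 hG hm hεJ
    (by rw [hcard]; exact hmJ)
  rw [hcard] at this
  have hfloor : ⌊2 * (768 * J : ℝ) / ε⌋₊ = 36864 * J ^ 2 := by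
    have : 2 * (768 * J : ℝ) / ε = ((36864 * J ^ 2 : ℕ) : ℝ) := by
      rw [hε]; push_cast; field_simp; norm_num
    rw [this, Nat.floor_natCast]
  rw [hfloor] at this
  calc s.card ≤ (1 + G.card * (36864 * J ^ 2 + 1)) ^ (m * J) := this
    _ ≤ _ := by gcongr; exact Finset.card_image_le

theorem card_lowerR {L B : Set (EuclideanSpace ℝ (Fin n))} (hL : IsSymmBody L) {J : ℕ}
    (hJ : 2 ≤ J) {s : Finset (EuclideanSpace ℝ (Fin n))} (hsep : Sep L s)
    (hcard : 2 ≤ s.card) {S : Finset (EuclideanSpace ℝ (Fin n))}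
    (hcov : Cov S (polarBody L) B)
    (hB : ∀ x ∈ s, ∀ z ∈ B, |(inner ℝ x z : ℝ)| ≤ 1 / (24 * J)) :
    12 * J + 1 ≤ S.card := by
  classical
  have hJ0 : (0 : ℝ) < J := by positivity
  obtain ⟨x, hx, y, hy, hxy⟩ := Finset.one_lt_card.1 (by omega : 1 < s.card)
  obtain ⟨w, hw, hgt⟩ := exists_polar_gt hL (hsep x hx y hy hxy)
  set ε : ℝ := 1 / (24 * J) with hε
  have hε0 : 0 < ε := by positivity
  let τ : ℕ → ℝ := fun k => -1 + k / (6 * J)
  have hτ : ∀ k ∈ Finset.range (12 * J + 1), |τ k| ≤ 1 := by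
    intro k hk
    have hk' : (k : ℝ) ≤ 12 * J := by
      have := Finset.mem_range.1 hk
      exact_mod_cast (by omega : k ≤ 12 * J)
    have h1 : (k : ℝ) / (6 * J) ≤ 2 := by
      rw [div_le_iff₀ (by positivity)]; linarith only [hk']
    have h2 : 0 ≤ (k : ℝ) / (6 * J) := by positivity
    rw [abs_le]; constructor <;> simp only [τ] <;> linarith only [h1, h2]
  have hc : ∀ k : ℕ, ∃ a : EuclideanSpace ℝ (Fin n), k ∈ Finset.range (12 * J + 1) →
      a ∈ S ∧ τ k • w - a ∈ B := by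
    intro k
    by_cases hk : k ∈ Finset.range (12 * J + 1)
    · obtain ⟨a, ha, hwa⟩ := hcov (τ k • w) (hL.polar.smul_mem_of_le hw (hτ k hk))
      exact ⟨a, fun _ => ⟨ha, hwa⟩⟩
    · exact ⟨0, fun h => absurd h hk⟩
  choose a ha using hc
  rw [← Finset.card_range (12 * J + 1)]
  refine Finset.card_le_card_of_injOn a (fun k hk => (ha k hk).1) ?_
  have main : ∀ k ∈ Finset.range (12 * J + 1), ∀ l ∈ Finset.range (12 * J + 1),
      a k = a l → ¬ k < l := by
    intro k hk l hl hkl hlt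
    have h1 := (ha k hk).2
    have h2 := (ha l hl).2
    rw [hkl] at h1
    have b1 := abs_le.1 (hB x hx _ h1)
    have b2 := abs_le.1 (hB x hx _ h2)
    have b3 := abs_le.1 (hB y hy _ h1)
    have b4 := abs_le.1 (hB y hy _ h2)
    rw [inner_sub_right, real_inner_smul_right] at b1 b2 b3 b4
    rw [inner_sub_left] at hgt
    have hgap : 4 * ε ≤ τ l - τ k := by
      simp only [τ, hε]
      have : ((k : ℝ) + 1) ≤ l := by exact_mod_cast hlt
      have e : -1 + (l : ℝ) / (6 * J) - (-1 + k / (6 * J)) = (l - k) / (6 * J) := by ring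
      rw [e]
      have e2 : 4 * (1 / (24 * (J:ℝ))) = 1 / (6 * J) := by field_simp; norm_num
      rw [e2]
      gcongr
      linarith only [this]
    have h5 : (τ l - τ k) * (inner ℝ x w - inner ℝ y w) ≤ 4 * ε := by
      linarith
    have h6 : τ l - τ k < (τ l - τ k) * (inner ℝ x w - inner ℝ y w) := by
      have hpos : 0 < τ l - τ k := by linarith only [hε0, hgap]
      nlinarith only [hgap, hgt, hε0]
    linarith only [b1, b2, b3, b4, hgap, h6]
  intro k hk l hl hkl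
  rcases lt_trichotomy k l with h | h | h
  · exact absurd h (main k hk l hl hkl)
  · exact h
  · exact absurd h (main l hl k hk hkl.symm)

theorem rpow_inv_le_two {J : ℕ} (hJ : 1 ≤ J) : (J : ℝ) ^ (1 / (J : ℝ)) ≤ 2 := by
  have hJ0 : (0 : ℝ) < J := by exact_mod_cast hJ
  have h1 : (J : ℝ) ≤ 2 ^ J := by exact_mod_cast (Nat.lt_two_pow_self).le
  calc (J : ℝ) ^ (1 / (J : ℝ)) ≤ ((2 : ℝ) ^ J) ^ (1 / (J : ℝ)) :=
        Real.rpow_le_rpow hJ0.le h1 (by positivity)
    _ = 2 := by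
        rw [← Real.rpow_natCast, ← Real.rpow_mul (by norm_num), mul_one_div_cancel hJ0.ne',
          Real.rpow_one]

theorem sq_rpow_inv_le {J : ℕ} (hJ : 2 ≤ J) {c : ℝ} (hc : 1 ≤ c) :
    (c ^ 2) ^ (1 / (J : ℝ)) ≤ c := by
  have hJ2 : (2 : ℝ) ≤ J := by exact_mod_cast hJ
  have hJinv : 1 / (J : ℝ) ≤ 1 / 2 := by
    apply one_div_le_one_div_of_le <;> linarith only [hJ2]
  calc (c ^ 2) ^ (1 / (J : ℝ)) ≤ (c ^ 2) ^ (1 / 2 : ℝ) :=
        Real.rpow_le_rpow_of_exponent_le (one_le_pow₀ hc) hJinv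
    _ = c := by
        rw [← Real.sqrt_eq_rpow]
        exact Real.sqrt_sq (by linarith)

/-- The bound at one scale. -/
theorem level_boundR {L B : Set (EuclideanSpace ℝ (Fin n))} (hL : IsSymmBody L) {J : ℕ}
    (hJ : 2 ≤ J) {s : Finset (EuclideanSpace ℝ (Fin n))}
    (hs : ∀ x ∈ s, x ∈ (768 * J : ℝ) • L) (hsep : Sep L s)
    {S : Finset (EuclideanSpace ℝ (Fin n))}
    (hS : ∀ x ∈ S, x ∈ polarBody L) (hcov : Cov S (polarBody L) B)
    (hB : ∀ x ∈ s, ∀ z ∈ B, |(inner ℝ x z : ℝ)| ≤ 1 / (24 * J)) :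
    Real.log s.card ≤ 294912 * J * Real.log S.card * (Real.log s.card) ^ (1 / (J : ℝ)) := by
  have hJ0 : (0 : ℝ) < J := by positivity
  have hJ2 : (2 : ℝ) ≤ J := by exact_mod_cast hJ
  have hlogS : 0 ≤ Real.log S.card := Real.log_natCast_nonneg _
  rcases Nat.lt_or_ge s.card 2 with hlt | hge
  · have h0 : Real.log s.card = 0 := by
      interval_cases h : s.card <;> simp
    rw [h0]
    positivity
  · set p := Real.log s.card with hp
    have hp2 : Real.log 2 ≤ p := Real.log_le_log (by norm_num) (by exact_mod_cast hge)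
    have hlog2 := Real.log_two_gt_d9
    have hp0 : 0 < p := by linarith only [hp2, hlog2]
    have hbig : 1 ≤ 64 * (768 * J : ℝ) ^ 2 * p := by
      have h1 : (2 : ℝ) ≤ 64 * (768 * J : ℝ) ^ 2 := by nlinarith only [hJ2]
      nlinarith only [h1, hp2, hlog2]
    set ρ := (64 * (768 * J : ℝ) ^ 2 * p) ^ (1 / (J : ℝ)) with hρ
    have hρ1 : 1 ≤ ρ := Real.one_le_rpow hbig (by positivity)
    set m := ⌈ρ⌉₊ with hm
    have hmρ : ρ ≤ m := Nat.le_ceil ρ
    have hm2 : (m : ℝ) ≤ 2 * ρ := by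
      have := Nat.ceil_lt_add_one (by linarith only [hρ1] : 0 ≤ ρ)
      linarith only [hρ1, this]
    have hm0 : 0 < m := by
      have : (0 : ℝ) < m := by linarith only [hρ1, hmρ]
      exact_mod_cast this
    have hmJ : 64 * (768 * J : ℝ) ^ 2 * Real.log s.card ≤ (m : ℝ) ^ J := by
      have h1 : ρ ^ J = 64 * (768 * J : ℝ) ^ 2 * p := by
        rw [hρ, ← Real.rpow_natCast, ← Real.rpow_mul (by linarith only [hbig])]
        rw [one_div_mul_cancel hJ0.ne', Real.rpow_one]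
      rw [← hp, ← h1]
      exact pow_le_pow_left₀ (by linarith only [hρ1]) hmρ J
    have hne : s.Nonempty := Finset.card_pos.1 (by omega)
    have hcore := core_applyR hL hJ hs hsep hne hS hcov hB hm0 hmJ
    have hlow := card_lowerR hL hJ hsep hge hcov hB
    have hSbig : (1 : ℝ) + S.card * (36864 * J ^ 2 + 1) ≤ (S.card : ℝ) ^ 6 := by
      have h1 : (12 * J + 1 : ℝ) ≤ S.card := by exact_mod_cast hlow
      have h2 : (25 : ℝ) ≤ S.card := by linarith only [hJ2, h1]
      have h3 : (36864 * J ^ 2 + 1 : ℝ) ≤ 256 * (S.card : ℝ) ^ 2 := by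
        have h4 : (12 * J + 1 : ℝ) ^ 2 ≤ (S.card : ℝ) ^ 2 :=
          pow_le_pow_left₀ (by positivity) h1 2
        nlinarith only [h4, hJ2]
      have h4 : (S.card : ℝ) * (36864 * J ^ 2 + 1) ≤ 256 * (S.card : ℝ) ^ 3 := by
        calc (S.card : ℝ) * (36864 * J ^ 2 + 1) ≤ S.card * (256 * (S.card : ℝ) ^ 2) :=
              mul_le_mul_of_nonneg_left h3 (by positivity)
          _ = _ := by ring
      have h5 : (25 : ℝ) ^ 3 ≤ (S.card : ℝ) ^ 3 := pow_le_pow_left₀ (by norm_num) h2 3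
      have h6 : (S.card : ℝ) ^ 6 = (S.card : ℝ) ^ 3 * (S.card : ℝ) ^ 3 := by ring
      rw [h6]
      nlinarith only [h4, h5]
    have hlogbound : p ≤ (m * J : ℝ) * (6 * Real.log S.card) := by
      have h1 : (s.card : ℝ) ≤ ((1 + S.card * (36864 * J ^ 2 + 1) : ℕ) : ℝ) ^ (m * J) := by
        exact_mod_cast hcore
      have h2 : p ≤ Real.log (((1 + S.card * (36864 * J ^ 2 + 1) : ℕ) : ℝ) ^ (m * J)) :=
        Real.log_le_log (by exact_mod_cast Finset.card_pos.2 hne) h1
      rw [Real.log_pow] at h2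
      have h3 : Real.log ((1 + S.card * (36864 * J ^ 2 + 1) : ℕ) : ℝ) ≤ 6 * Real.log S.card := by
        have h4 : Real.log ((1 + S.card * (36864 * J ^ 2 + 1) : ℕ) : ℝ) ≤
            Real.log ((S.card : ℝ) ^ 6) := by
          apply Real.log_le_log (by positivity)
          push_cast
          exact hSbig
        rw [Real.log_pow] at h4
        exact_mod_cast h4
      calc p ≤ _ := h2
        _ ≤ ((m * J : ℕ) : ℝ) * (6 * Real.log S.card) :=
            mul_le_mul_of_nonneg_left h3 (by positivity)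
        _ = _ := by push_cast; ring
    have hρ32 : ρ ≤ 24576 * p ^ (1 / (J : ℝ)) := by
      have e : 64 * (768 * J : ℝ) ^ 2 * p = (6144 : ℝ) ^ 2 * ((J : ℝ) * (J * p)) := by ring
      rw [hρ, e, Real.mul_rpow (by positivity) (by positivity),
        Real.mul_rpow hJ0.le (by positivity), Real.mul_rpow hJ0.le hp0.le]
      have h1 := sq_rpow_inv_le hJ (c := 6144) (by norm_num)
      have h2 := rpow_inv_le_two (J := J) (by omega)
      have h3 : 0 ≤ p ^ (1 / (J : ℝ)) := by positivity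
      calc ((6144 : ℝ) ^ 2) ^ (1 / (J : ℝ)) *
            ((J : ℝ) ^ (1 / (J : ℝ)) * ((J : ℝ) ^ (1 / (J : ℝ)) * p ^ (1 / (J : ℝ))))
          ≤ 6144 * (2 * (2 * p ^ (1 / (J : ℝ)))) := by gcongr
        _ = _ := by ring
    calc p ≤ (m * J : ℝ) * (6 * Real.log S.card) := hlogbound
      _ ≤ (2 * (24576 * p ^ (1 / (J : ℝ))) * J) * (6 * Real.log S.card) := by
          gcongr
          linarith only [hm2, hρ32]
      _ = _ := by ring

open MeasureTheory in
/-- The volumetric bound for separated subsets of a multiple of the body. -/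
theorem card_le_vol {L : Set (EuclideanSpace ℝ (Fin n))} (hL : IsSymmBody L) {c : ℝ}
    (hc : 0 < c) {s : Finset (EuclideanSpace ℝ (Fin n))} (hs : ∀ x ∈ s, x ∈ c • L)
    (hsep : Sep L s) : (s.card : ℝ) ≤ (2 * c + 1) ^ n := by
  classical
  set H : Set (EuclideanSpace ℝ (Fin n)) := (1 / 2 : ℝ) • L with hH
  have hHb : IsSymmBody H := hL.smul (by norm_num)
  let U : EuclideanSpace ℝ (Fin n) → Set (EuclideanSpace ℝ (Fin n)) :=
    fun x => (fun y => y + -x) ⁻¹' H
  have hUm : ∀ x ∈ s, MeasurableSet (U x) := fun x _ =>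
    (hHb.compact.isClosed.preimage (by fun_prop)).measurableSet
  have hUd : (s : Set (EuclideanSpace ℝ (Fin n))).PairwiseDisjoint U := by
    intro x hx y hy hxy
    rw [Function.onFun, Set.disjoint_left]
    rintro z ⟨u, hu, hzu⟩ ⟨v, hv, hzv⟩
    apply hsep x hx y hy hxy
    have e : x - y = (1 / 2 : ℝ) • (v - u) := by
      have h1 : (1 / 2 : ℝ) • u = z + -x := hzu
      have h2 : (1 / 2 : ℝ) • v = z + -y := hzv
      rw [smul_sub, h1, h2]; abel
    rw [e]
    exact hL.half_sub hv hu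
  have hsub : (⋃ x ∈ s, U x) ⊆ (c + 1 / 2) • L := by
    intro z hz
    simp only [Set.mem_iUnion, exists_prop] at hz
    obtain ⟨x, hx, u, hu, hzu⟩ := hz
    obtain ⟨l, hl, hxl⟩ := hs x hx
    have h1 : (1 / 2 : ℝ) • u = z + -x := hzu
    have h2 : c • l = x := hxl
    have hc2 : 0 < c + 1 / 2 := by positivity
    refine ⟨(c / (c + 1 / 2)) • l + ((1 / 2) / (c + 1 / 2)) • u,
      hL.convex hl hu (by positivity) (by positivity) (by field_simp), ?_⟩
    show (c + 1 / 2) • ((c / (c + 1 / 2)) • l + ((1 / 2) / (c + 1 / 2)) • u) = z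
    rw [smul_add, smul_smul, smul_smul, mul_div_cancel₀ _ hc2.ne', mul_div_cancel₀ _ hc2.ne',
      h1, h2]
    abel
  have hvolU : ∀ x, volume (U x) = ENNReal.ofReal ((1 / 2 : ℝ) ^ n) * volume L := by
    intro x
    rw [measure_preimage_add_right, hH, Measure.addHaar_smul, finrank_euclideanSpace_fin,
      abs_of_pos (by positivity)]
  have h1 : volume (⋃ x ∈ s, U x) = s.card * (ENNReal.ofReal ((1 / 2 : ℝ) ^ n) * volume L) := by
    rw [measure_biUnion_finset hUd hUm]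
    simp only [hvolU, Finset.sum_const, nsmul_eq_mul]
  have h2 : volume ((c + 1 / 2) • L) = ENNReal.ofReal ((c + 1 / 2) ^ n) * volume L := by
    rw [Measure.addHaar_smul, finrank_euclideanSpace_fin, abs_of_pos (by positivity)]
  have h3 := measure_mono (μ := volume) hsub
  rw [h1, h2, ← mul_assoc] at h3
  have hpos : volume L ≠ 0 := (Measure.measure_pos_of_nonempty_interior volume
    hL.nonempty_interior).ne'
  have hfin : volume L ≠ ⊤ := hL.compact.measure_lt_top.ne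
  have h4 := (ENNReal.mul_le_mul_iff_left hpos hfin).1 h3
  rw [← ENNReal.ofReal_natCast, ← ENNReal.ofReal_mul (by positivity),
    ENNReal.ofReal_le_ofReal_iff (by positivity)] at h4
  have e : (2 * c + 1) ^ n = (c + 1 / 2) ^ n * 2 ^ n := by
    rw [← mul_pow]; congr 1; ring
  have e2 : (s.card : ℝ) = s.card * (1 / 2 : ℝ) ^ n * 2 ^ n := by
    rw [mul_assoc, ← mul_pow]; norm_num
  rw [e, e2]
  exact mul_le_mul_of_nonneg_right h4 (by positivity)

end Vale.Agent.P126.N
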