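import Vale.Agent.N126.Up

/-!
# P126: the transposed counterexample
-/

open Pointwise

namespace Vale.Agent.P126.N

open Vale.Agent.P126.CE Vale.Agent.P126.CQ

theorem cube_eq {n : ℕ} (ρ : ℝ) :
    cube n ρ = slabs (fun _ : Fin 0 => (0 : EuclideanSpace ℝ (Fin n))) ρ :=
  (slabs_empty ρ).symm

theorem isSymmBody_cube {n : ℕ} {ρ : ℝ} (hρ : 0 < ρ) : IsSymmBody (cube n ρ) := by
  rw [cube_eq]; exact isSymmBody_slabs _ hρ

/-- The polar of the unit cube is the cross-polytope. -/
theorem polar_cube {n : ℕ} :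
    polarBody (cube n 1) = {x : EuclideanSpace ℝ (Fin n) | ∑ i, |x i| ≤ 1} := by
  ext y
  constructor
  · intro hy
    rw [cube_eq] at hy
    simpa only [one_mul, Set.mem_ofPred_eq] using sum_abs_le_of_mem_polar _ one_pos hy
  · intro hy x hx
    rw [PiLp.inner_apply]
    refine le_trans (Finset.sum_le_sum fun i _ => ?_) hy
    have e : (inner ℝ (x i) (y i) : ℝ) = x i * y i := by
      simp only [RCLike.inner_apply, Real.ringHom_apply, mul_comm]
    rw [e]
    calc x i * y i ≤ |x i * y i| := le_abs_self _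
      _ = |x i| * |y i| := abs_mul _ _
      _ ≤ 1 * |y i| := mul_le_mul_of_nonneg_right (hx i) (abs_nonneg _)
      _ = |y i| := one_mul _

/-- the linear map `λ ↦ (∑ λ_w f w x / 5)_x` -/
noncomputable def rowMap {nW nX : ℕ} (f : Fin nW → Fin nX → ℝ) :
    (Fin nW → ℝ) →ₗ[ℝ] EuclideanSpace ℝ (Fin nX) where
  toFun lam := WithLp.toLp 2 fun x => (∑ w, lam w * f w x) / 5
  map_add' lam mu := by
    ext x
    simp only [Pi.add_apply, PiLp.add_apply, add_mul, Finset.sum_add_distrib, add_div]
  map_smul' c lam := by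
    ext x
    simp only [Pi.smul_apply, smul_eq_mul, RingHom.id_apply, PiLp.smul_apply, mul_assoc,
      ← Finset.mul_sum, mul_div_assoc]

theorem rowMap_apply {nW nX : ℕ} (f : Fin nW → Fin nX → ℝ) (lam : Fin nW → ℝ) (x : Fin nX) :
    rowMap f lam x = (∑ w, lam w * f w x) / 5 := rfl

theorem convex_l1 {k : ℕ} : Convex ℝ {lam : Fin k → ℝ | ∑ w, |lam w| ≤ 1} := by
  intro x hx y hy a b ha hb hab
  show ∑ w, |(a • x + b • y) w| ≤ 1
  have hx' : ∑ w, |x w| ≤ 1 := hx
  have hy' : ∑ w, |y w| ≤ 1 := hy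
  calc ∑ w, |(a • x + b • y) w| ≤ ∑ w, (a * |x w| + b * |y w|) := by
        refine Finset.sum_le_sum fun w _ => ?_
        simp only [Pi.add_apply, Pi.smul_apply, smul_eq_mul]
        calc |a * x w + b * y w| ≤ |a * x w| + |b * y w| := abs_add_le _ _
          _ = _ := by rw [abs_mul, abs_mul, abs_of_nonneg ha, abs_of_nonneg hb]
    _ = a * ∑ w, |x w| + b * ∑ w, |y w| := by
        rw [Finset.sum_add_distrib, Finset.mul_sum, Finset.mul_sum]
    _ ≤ a * 1 + b * 1 := by gcongr
    _ = 1 := by linarith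

theorem compact_l1 {k : ℕ} : IsCompact {lam : Fin k → ℝ | ∑ w, |lam w| ≤ 1} := by
  refine Metric.isCompact_of_isClosed_isBounded (isClosed_le (by fun_prop) continuous_const) ?_
  rw [Metric.isBounded_iff_subset_closedBall (0 : Fin k → ℝ)]
  refine ⟨1, fun lam hlam => ?_⟩
  rw [mem_closedBall_zero_iff, pi_norm_le_iff_of_nonneg zero_le_one]
  intro w
  rw [Real.norm_eq_abs]
  exact (Finset.single_le_sum (f := fun w => |lam w|) (fun _ _ => abs_nonneg _)
    (Finset.mem_univ w)).trans hlam

/-- From the combinatorial data to a body which is easy to cover by cubes, while the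
cross-polytope is hard to cover by multiples of its polar. -/
theorem geom_tr (a : ℝ) (ha : 1 ≤ a) (nW nX N : ℕ) (f : Fin nW → Fin nX → ℝ)
    (cls : (Fin nW → ℝ) → Fin N) (κ : ℕ) (hκ : 12 * a ≤ κ)
    (hsep : ∀ x y : Fin nX, x ≠ y → ∃ w, (κ : ℝ) ≤ |f w x - f w y|)
    (hcls : ∀ lam mu : Fin nW → ℝ, ∑ w, |lam w| ≤ 1 → ∑ w, |mu w| ≤ 1 → cls lam = cls mu →
      ∀ x, |∑ w, (lam w - mu w) * f w x| ≤ 4) :
    ∃ K : Set (EuclideanSpace ℝ (Fin nX)), IsSymmBody K ∧
      nX ≤ coveringNumber (polarBody (cube nX 1)) (a • polarBody K) ∧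
      coveringNumber K (cube nX 1) ≤ N := by
  classical
  have ha0 : 0 < a := by linarith
  set D : Set (Fin nW → ℝ) := {lam | ∑ w, |lam w| ≤ 1} with hD
  set C : Set (EuclideanSpace ℝ (Fin nX)) := cube nX (1 / 5) with hC
  have hCb : IsSymmBody C := isSymmBody_cube (by norm_num)
  have hD0 : (0 : Fin nW → ℝ) ∈ D := by simp [hD]
  have hK : IsSymmBody (rowMap f '' D + C) := by
    refine ⟨(convex_l1.linear_image (rowMap f)).add hCb.convex,
      (compact_l1.image (rowMap f).continuous_of_finiteDimensional).add hCb.compact, ?_, ?_⟩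
    · refine hCb.nonempty_interior.mono (interior_mono fun v hv => ?_)
      exact ⟨rowMap f 0, ⟨0, hD0, rfl⟩, v, hv, by simp⟩
    · rintro _ ⟨_, ⟨lam, hlam, rfl⟩, v, hv, rfl⟩
      refine ⟨rowMap f (-lam), ⟨-lam, ?_, rfl⟩, -v, hCb.symm v hv, ?_⟩
      · show ∑ w, |(-lam) w| ≤ 1
        have hlam' : ∑ w, |lam w| ≤ 1 := hlam
        simpa only [Pi.neg_apply, abs_neg] using hlam'
      · simp only [map_neg]; abel
  refine ⟨rowMap f '' D + C, hK, ?_, ?_⟩
  · have hQ : IsSymmBody (cube nX 1) := isSymmBody_cube one_pos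
    obtain ⟨t, ht, hcard⟩ := exists_cov_eq (exists_cov_of_compact hQ.polar.compact
      (hK.polar.smul ha0.ne').zero_mem_interior)
    rw [← hcard]
    have he : ∀ x : Fin nX, EuclideanSpace.single x (1 : ℝ) ∈ polarBody (cube nX 1) := by
      intro x y hy
      rw [EuclideanSpace.inner_single_right]
      simpa using (le_abs_self _).trans (hy x)
    choose c hc hcL using fun x => ht _ (he x)
    have hinj : Function.Injective c := by
      intro x y hxy
      by_contra hne
      obtain ⟨w, hw⟩ := hsep x y hne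
      have hr : rowMap f (Pi.single w 1) ∈ rowMap f '' D + C := by
        refine ⟨rowMap f (Pi.single w 1), ⟨_, ?_, rfl⟩, 0, hCb.zero_mem, by simp⟩
        show ∑ w', |(Pi.single w (1 : ℝ) : Fin nW → ℝ) w'| ≤ 1
        rw [Finset.sum_eq_single w]
        · simp
        · intro b _ hb; simp [hb]
        · simp
      have hrow : ∀ z : Fin nX, (inner ℝ (rowMap f (Pi.single w 1))
          (EuclideanSpace.single z (1 : ℝ)) : ℝ) = f w z / 5 := by
        intro z
        rw [EuclideanSpace.inner_single_right, rowMap_apply, Finset.sum_eq_single w]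
        · simp
        · intro b _ hb; simp [hb]
        · simp
      obtain ⟨u, hu, hu'⟩ := hcL x
      obtain ⟨v, hv, hv'⟩ := hcL y
      have h1 := abs_le.1 (hK.abs_inner_le hr hu)
      have h2 := abs_le.1 (hK.abs_inner_le hr hv)
      have e1 : a * inner ℝ (rowMap f (Pi.single w 1)) u =
          f w x / 5 - inner ℝ (rowMap f (Pi.single w 1)) (c x) := by
        rw [← real_inner_smul_right, ← hrow x, ← inner_sub_right]
        congr 1
      have e2 : a * inner ℝ (rowMap f (Pi.single w 1)) v =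
          f w y / 5 - inner ℝ (rowMap f (Pi.single w 1)) (c x) := by
        rw [← real_inner_smul_right, ← hrow y, ← inner_sub_right, hxy]
        congr 1
      have h3 : |f w x - f w y| ≤ 10 * a := by
        rw [abs_le]
        constructor <;> nlinarith [h1.1, h1.2, h2.1, h2.2]
      linarith
    have := Finset.card_le_card_of_injOn (s := Finset.univ) (t := t) c (fun x _ => hc x)
      (fun x _ y _ hxy => hinj hxy)
    simpa only [ge_iff_le, Finset.card_univ, Fintype.card_fin] using this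
  · have hex : ∀ j : Fin N, ∃ c : EuclideanSpace ℝ (Fin nX), ∀ lam ∈ D, ∀ v ∈ C,
        cls lam = j → rowMap f lam + v - c ∈ cube nX 1 := by
      intro j
      by_cases hj : ∃ mu ∈ D, cls mu = j
      · obtain ⟨mu, hmu, hmuj⟩ := hj
        refine ⟨rowMap f mu, fun lam hlam v hv hl x => ?_⟩
        have h4 := hcls lam mu hlam hmu (hl.trans hmuj.symm) x
        have h5 : |v x| ≤ 1 / 5 := hv x
        have e : (rowMap f lam + v - rowMap f mu) x =
            (∑ w, (lam w - mu w) * f w x) / 5 + v x := by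
          simp only [PiLp.sub_apply, PiLp.add_apply, rowMap_apply, sub_mul,
            Finset.sum_sub_distrib]
          ring
        rw [e]
        have h6 := abs_le.1 h4
        have h7 := abs_le.1 h5
        rw [abs_le]
        constructor <;> linarith [h6.1, h6.2, h7.1, h7.2]
      · push Not at hj
        exact ⟨0, fun lam hlam v _ hl => absurd hl (hj lam hlam)⟩
    choose c hc using hex
    refine (coveringNumber_le (t := Finset.univ.image c) ?_).trans ?_
    · rintro _ ⟨_, ⟨lam, hlam, rfl⟩, v, hv, rfl⟩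
      exact ⟨c (cls lam), Finset.mem_image_of_mem _ (Finset.mem_univ _), hc _ lam hlam v hv rfl⟩
    · refine Finset.card_image_le.trans ?_
      simp only [Finset.card_univ, Fintype.card_fin, le_refl]

/-- The left inequality loses a power for the unit cube as the covering body. -/
theorem gap_tr (a M : ℝ) (ha : 1 ≤ a) :
    ∃ (n : ℕ) (K : Set (EuclideanSpace ℝ (Fin n))), 1 ≤ n ∧ IsSymmBody K ∧
      M ≤ Real.log n ∧
      Real.log n ≤ Real.log (coveringNumber (polarBody (cube n 1)) (a • polarBody K)) ∧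
      Real.log (coveringNumber K (cube n 1)) ≤ (Real.log n) ^ (1 - Real.exp (-(60 * a))) := by
  set κ := ⌈12 * a⌉₊ with hκ
  obtain ⟨c, hc⟩ : ∃ c : ℕ, c = 10 * 32 ^ (κ + 1) := ⟨_, rfl⟩
  have hc0 : 0 < c := by rw [hc]; positivity
  obtain ⟨m, hm⟩ : ∃ m : ℕ, m = max (32 * (κ + 1) ^ 2) (max (2 ^ (2 * c + 1)) ⌈2 * |M|⌉₊) :=
    ⟨_, rfl⟩
  have hm1 : 32 * (κ + 1) ^ 2 ≤ m := by rw [hm]; exact le_max_left _ _
  have hm2 : 2 ^ (2 * c + 1) ≤ m := by
    rw [hm]; exact (le_max_left _ _).trans (le_max_right _ _)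
  have hm3 : ⌈2 * |M|⌉₊ ≤ m := by
    rw [hm]; exact (le_max_right _ _).trans (le_max_right _ _)
  obtain ⟨nW, nX, N, f, cls, -, hsep, hcls, hN, h2m, hnX, -⟩ := H584.core2 κ m hm1
  obtain ⟨K, hK, hlow, hup⟩ := geom_tr a ha nW nX N f cls κ (Nat.le_ceil _) hsep hcls
  have hnX0 : 0 < nX := lt_of_lt_of_le (by positivity) h2m
  have hnX0R : (0 : ℝ) < nX := by exact_mod_cast hnX0
  have hN0 : 0 < N := (Nat.zero_le _).trans_lt (cls 0).2
  have hN0R : (0 : ℝ) < N := by exact_mod_cast hN0
  set y := Real.log nX with hy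
  have h1 : m * Real.log 2 ≤ y := by
    rw [← Real.log_pow]
    apply Real.log_le_log (by positivity)
    exact_mod_cast h2m
  have h2 : y ≤ (m + 1 : ℝ) ^ (10 * 32 ^ (κ + 1)) * Real.log 2 := by
    have h1 : (nX : ℝ) ≤ 2 ^ ((m + 1) ^ (10 * 32 ^ (κ + 1))) := by exact_mod_cast hnX
    have h2 := Real.log_le_log hnX0R h1
    rw [Real.log_pow] at h2
    push_cast at h2
    exact h2
  have h4 : m * Real.log (coveringNumber K (cube nX 1)) ≤ y := by
    have h1 : Real.log (coveringNumber K (cube nX 1)) ≤ Real.log N :=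
      Real.log_le_log (by exact_mod_cast coveringNumber_pos hK (isSymmBody_cube one_pos))
        (by exact_mod_cast hup)
    calc (m : ℝ) * Real.log (coveringNumber K (cube nX 1))
        ≤ m * Real.log N := mul_le_mul_of_nonneg_left h1 (by positivity)
      _ = Real.log ((N : ℝ) ^ m) := (Real.log_pow _ _).symm
      _ ≤ Real.log nX := by
          apply Real.log_le_log (by positivity)
          exact_mod_cast hN
  have hl2 := Real.log_two_gt_d9
  have hl2' := Real.log_two_lt_d9
  have hm2R : (2 : ℝ) ^ (2 * c + 1) ≤ m := by exact_mod_cast hm2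
  have hm0 : (0 : ℝ) < m := lt_of_lt_of_le (by positivity) hm2R
  have hmy : (m : ℝ) / 2 ≤ y := by nlinarith only [h1, hl2, hm0]
  refine ⟨nX, K, hnX0, hK, ?_, Real.log_le_log hnX0R (by exact_mod_cast hlow), ?_⟩
  · have h5 : 2 * |M| ≤ m := (Nat.le_ceil _).trans (by exact_mod_cast hm3)
    have := le_abs_self M
    linarith only [hmy, h5, this]
  · have h5 : Real.log (coveringNumber K (cube nX 1)) ≤ y / m := by
      rw [le_div_iff₀ hm0, mul_comm]
      exact h4
    refine h5.trans (final_power (c := c) hc0 ?_ ?_ ?_ le_rfl ?_)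
    · have : (1 : ℝ) ≤ 2 ^ (2 * c + 1) := one_le_pow₀ (by norm_num)
      linarith only [hm2R, this]
    · have : (2 : ℝ) ^ (2 * c + 1) = 2 * 2 ^ (2 * c) := by rw [pow_succ]; ring
      linarith only [hm2R, hmy, this]
    · rw [hc]
      refine h2.trans ?_
      have h6 : (0 : ℝ) < (m + 1 : ℝ) ^ (10 * 32 ^ (κ + 1)) := by positivity
      nlinarith only [h6, hl2']
    · have h6 := final_exp_bound a ha
      rw [Real.exp_neg, ← one_div]
      apply one_div_le_one_div_of_le (by positivity)
      refine le_trans ?_ h6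
      rw [hc]
      push_cast
      have h7 : (0 : ℝ) < 32 ^ (⌈12 * a⌉₊ + 1) := by positivity
      linarith only [h7]

/-- The two remaining cases of cubes and cross-polytopes. -/
theorem gap_tr_both (a M : ℝ) (ha : 1 ≤ a) :
    ∃ (n : ℕ) (K L : Set (EuclideanSpace ℝ (Fin n))), 1 ≤ n ∧ IsSymmBody K ∧ IsSymmBody L ∧
      IsSymmBody (cube n 1) ∧ IsSymmBody (polarBody (cube n 1)) ∧ M ≤ Real.log n ∧
      Real.log n ≤ Real.log (coveringNumber (polarBody (cube n 1)) (a • polarBody K)) ∧
      Real.log (coveringNumber K (cube n 1)) ≤ (Real.log n) ^ (1 - Real.exp (-(60 * a))) ∧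
      Real.log n ≤ Real.log (coveringNumber (polarBody (cube n 1)) L) ∧
      Real.log (coveringNumber (polarBody L) (a⁻¹ • polarBody (polarBody (cube n 1)))) ≤
        (Real.log n) ^ (1 - Real.exp (-(60 * a))) := by
  have ha0 : 0 < a := by linarith
  obtain ⟨n, K, hn, hK, hM, h1, h2⟩ := gap_tr a M ha
  have hQ : IsSymmBody (cube n 1) := isSymmBody_cube one_pos
  exact ⟨n, K, a • polarBody K, hn, hK, hK.polar.smul ha0.ne', hQ, hQ.polar, hM, h1, h2, h1,
    (log_dual_le hK hQ ha0).trans h2⟩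

end Vale.Agent.P126.N
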