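import Vale.Agent.N126.Level

/-!
# P126: duality with a loss linear in the number of levels, and the dimension form
-/

open Finset Real Pointwise

namespace Vale.Agent.P126.N

variable {n : ℕ}

theorem abs_inner_Bs {K L : Set (EuclideanSpace ℝ (Fin n))} (hK : IsSymmBody K)
    (hL : IsSymmBody L) {ε A : ℝ} (hε : 0 < ε) (hA : 0 < A) {j : ℕ}
    {x z : EuclideanSpace ℝ (Fin n)}
    (hx : x ∈ (2 : ℝ) • (A⁻¹ ^ j • K) ∩ (2 * A) • L)
    (hz : z ∈ Bs (polarBody K) (polarBody L) (ε * A ^ j / 4) (ε / (4 * A))) :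
    |(inner ℝ x z : ℝ)| ≤ ε := by
  obtain ⟨⟨_, ⟨k, hk, rfl⟩, hx1⟩, ⟨l, hl, hx2⟩⟩ := hx
  obtain ⟨u, hu, v, hv, rfl⟩ := hz
  rw [inner_add_right, real_inner_smul_right, real_inner_smul_right]
  have h1 : |(inner ℝ x u : ℝ)| ≤ 2 * A⁻¹ ^ j := by
    rw [← hx1]
    simp only [real_inner_smul_left]
    rw [abs_mul, abs_mul, abs_of_pos (by norm_num : (0:ℝ) < 2),
      abs_of_pos (by positivity : (0:ℝ) < A⁻¹ ^ j), ← mul_assoc]
    have := hK.abs_inner_le hk hu
    have h0 : (0:ℝ) ≤ 2 * A⁻¹ ^ j := by positivity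
    nlinarith only [this, h0]
  have h2 : |(inner ℝ x v : ℝ)| ≤ 2 * A := by
    rw [← hx2]
    simp only [real_inner_smul_left]
    rw [abs_mul, abs_of_pos (by positivity : (0:ℝ) < 2 * A)]
    have := hL.abs_inner_le hl hv
    nlinarith only [this, hA]
  calc |ε * A ^ j / 4 * inner ℝ x u + ε / (4 * A) * inner ℝ x v|
      ≤ |ε * A ^ j / 4 * inner ℝ x u| + |ε / (4 * A) * inner ℝ x v| := abs_add_le _ _
    _ = ε * A ^ j / 4 * |(inner ℝ x u : ℝ)| + ε / (4 * A) * |(inner ℝ x v : ℝ)| := by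
        rw [abs_mul, abs_mul, abs_of_pos (by positivity : 0 < ε * A ^ j / 4),
          abs_of_pos (by positivity : 0 < ε / (4 * A))]
    _ ≤ ε * A ^ j / 4 * (2 * A⁻¹ ^ j) + ε / (4 * A) * (2 * A) := by gcongr
    _ = ε := by
        rw [inv_pow]
        field_simp
        ring

/-- The decomposition into scales. -/
theorem scales {K L : Set (EuclideanSpace ℝ (Fin n))} (hK : IsSymmBody K)
    (hL : IsSymmBody L) {J : ℕ} (hJ : 2 ≤ J) :
    ∃ (M : ℕ) (p q : ℕ → ℝ), (∀ j, 0 ≤ p j) ∧ (∀ j, 0 ≤ q j) ∧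
      Real.log (coveringNumber K L) ≤ ∑ j ∈ Finset.range M, p j ∧
      ∑ j ∈ Finset.range M, q j ≤
        2 * Real.log (coveringNumber (polarBody L) ((384 * J : ℝ)⁻¹ • polarBody K)) ∧
      (∀ j, p j ≤ 294912 * J * q j * (p j) ^ (1 / (J : ℝ))) ∧
      ∀ j, p j ≤ n * Real.log (1536 * J + 1) := by
  classical
  have hJ0 : (0 : ℝ) < J := by positivity
  have hJ2 : (2 : ℝ) ≤ J := by exact_mod_cast hJ
  set ε : ℝ := 1 / (24 * J) with hε
  have hε0 : 0 < ε := by positivity
  set A : ℝ := 384 * J with hA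
  have hA2 : 2 ≤ A := by rw [hA]; linarith
  have hA0 : 0 < A := by linarith
  have hεA : 16 ≤ ε * A := by
    rw [hε, hA]; apply le_of_eq; field_simp; norm_num
  have h2A : 2 * A = 768 * J := by rw [hA]; ring
  have hP := hK.polar
  have hQ := hL.polar
  have hprimal : ∀ j : ℕ, ∃ s : Finset (EuclideanSpace ℝ (Fin n)),
      (∀ x ∈ s, x ∈ (2 : ℝ) • (A⁻¹ ^ j • K) ∩ (2 * A) • L) ∧ Sep L s ∧
      Cov s ((2 : ℝ) • (A⁻¹ ^ j • K) ∩ (2 * A) • L) L := by
    intro j
    obtain ⟨t, ht⟩ := exists_cov_of_compact (A := (2 * A) • L) (B := (1 / 2 : ℝ) • L)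
      (hL.compact.smul (2 * A)) (hL.smul (by norm_num)).zero_mem_interior
    refine exists_max_sep (M := t.card) ?_ hL.zero_mem hL.symm
    intro s hs hsep
    refine sep_card_le (A := (2 * A) • L) (B := L) (B' := (1 / 2 : ℝ) • L) ?_
      (fun x hx => (hs x hx).2) hsep ht
    rintro _ ⟨b, hb, rfl⟩ _ ⟨b', hb', rfl⟩
    have := hL.half_sub hb hb'
    simp only [← smul_sub]
    exact this
  choose s hs1 hs2 hs3 using hprimal
  have hdual : ∀ j : ℕ, ∃ S : Finset (EuclideanSpace ℝ (Fin n)),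
      (∀ x ∈ S, x ∈ polarBody L) ∧
      Sep (Bs (polarBody K) (polarBody L) (ε * A ^ j / 4) (ε / (4 * A))) S ∧
      Cov S (polarBody L) (Bs (polarBody K) (polarBody L) (ε * A ^ j / 4) (ε / (4 * A))) := by
    intro j
    obtain ⟨t, ht⟩ := exists_cov_of_compact (A := polarBody L)
      (B := (ε / (8 * A)) • polarBody L)
      hQ.compact (hQ.smul (by positivity)).zero_mem_interior
    refine exists_max_sep (M := t.card) ?_ ?_ ?_
    · intro S hS hsep
      refine sep_card_le (A := polarBody L)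
        (B := Bs (polarBody K) (polarBody L) (ε * A ^ j / 4) (ε / (4 * A)))
        (B' := (ε / (8 * A)) • polarBody L) ?_ hS hsep ht
      rintro _ ⟨b, hb, rfl⟩ _ ⟨b', hb', rfl⟩
      refine ⟨0, hP.zero_mem, (1 / 2 : ℝ) • (b - b'), hQ.half_sub hb hb', ?_⟩
      simp only [smul_zero, zero_add, smul_smul, ← smul_sub]
      congr 1
      field_simp
      norm_num
    · exact ⟨0, hP.zero_mem, 0, hQ.zero_mem, by simp only [smul_zero, add_zero]⟩
    · rintro _ ⟨u, hu, v, hv, rfl⟩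
      exact ⟨-u, hP.symm u hu, -v, hQ.symm v hv, by simp only [add_comm, neg_add_rev, smul_neg]⟩
  choose S hS1 hS2 hS3 using hdual
  have hSne : ∀ j, (S j).Nonempty := by
    intro j
    obtain ⟨x, hx, _⟩ := hS3 j 0 hQ.zero_mem
    exact ⟨x, hx⟩
  have hsne : ∀ j, (s j).Nonempty := by
    intro j
    have h0 : (0 : EuclideanSpace ℝ (Fin n)) ∈ (2 : ℝ) • (A⁻¹ ^ j • K) ∩ (2 * A) • L :=
      ⟨((hK.smul (c := A⁻¹ ^ j) (by positivity)).smul (c := (2:ℝ))
        (by norm_num)).zero_mem, (hL.smul (c := 2 * A) (by positivity)).zero_mem⟩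
    obtain ⟨x, hx, _⟩ := hs3 j 0 h0
    exact ⟨x, hx⟩
  obtain ⟨M₀, hM₀⟩ := exists_pow_subsetA hK hL hA2
  obtain ⟨t, ht1, ht2⟩ := telescopingA hK hL hA0 hs3 (2 * M₀) (hM₀ (2 * M₀) (by omega))
  rw [Finset.card_singleton, one_mul] at ht2
  have hN : Real.log (coveringNumber K L) ≤
      ∑ j ∈ Finset.range (2 * M₀), Real.log (s j).card := by
    have h1 : coveringNumber K L ≤ ∏ j ∈ Finset.range (2 * M₀), (s j).card :=
      (coveringNumber_le ht1).trans ht2
    have hpos : 0 < coveringNumber K L := coveringNumber_pos hK hL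
    calc Real.log (coveringNumber K L)
        ≤ Real.log ((∏ j ∈ Finset.range (2 * M₀), (s j).card : ℕ) : ℝ) :=
          Real.log_le_log (by exact_mod_cast hpos) (by exact_mod_cast h1)
      _ = ∑ j ∈ Finset.range (2 * M₀), Real.log (s j).card := by
          push_cast
          rw [Real.log_prod]
          intro i _
          have := Finset.card_pos.2 (hsne i)
          positivity
  have hsum := lacunary_sumA hP hQ hε0 hA2 hεA hS1 hS2 hSne M₀
  have hεeq : ε / 16 = A⁻¹ := by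
    rw [hε, hA]; field_simp; norm_num
  rw [hεeq] at hsum
  have hsL : ∀ j, ∀ x ∈ s j, x ∈ (768 * J : ℝ) • L := fun j x hx => by
    rw [← h2A]; exact (hs1 j x hx).2
  refine ⟨2 * M₀, fun j => Real.log (s j).card, fun j => Real.log (S j).card,
    fun j => Real.log_natCast_nonneg _, fun j => Real.log_natCast_nonneg _, hN, hsum,
    fun j => level_boundR hL hJ (hsL j) (hs2 j) (hS1 j) (hS3 j)
      (fun x hx z hz => abs_inner_Bs hK hL hε0 hA0 (hs1 j x hx) hz), fun j => ?_⟩
  have h1 := card_le_vol hL (c := 768 * J) (by positivity) (hsL j) (hs2 j)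
  have h2 := Real.log_le_log (by exact_mod_cast Finset.card_pos.2 (hsne j)) h1
  rw [Real.log_pow] at h2
  have e : (2 * (768 * J) + 1 : ℝ) = 1536 * J + 1 := by ring
  rw [e] at h2
  exact h2

/-- Power form with a factor linear in `J`. -/
theorem upper_pow {K L : Set (EuclideanSpace ℝ (Fin n))} (hK : IsSymmBody K)
    (hL : IsSymmBody L) {J : ℕ} (hJ : 2 ≤ J) :
    (Real.log (coveringNumber K L)) ^ (1 - 1 / (J : ℝ)) ≤
      589824 * J * Real.log (coveringNumber (polarBody L) ((384 * J : ℝ)⁻¹ • polarBody K)) := by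
  obtain ⟨M, p, q, hp, hq, h1, h2, h3, -⟩ := scales hK hL hJ
  have hJ0 : (0 : ℝ) < J := by positivity
  have hJ2 : (2 : ℝ) ≤ J := by exact_mod_cast hJ
  have hJinv : 1 / (J : ℝ) ≤ 1 / 2 := by
    apply one_div_le_one_div_of_le <;> linarith only [hJ2]
  have hα0 : 0 < 1 - 1 / (J : ℝ) := by linarith only [hJinv]
  have hα1 : 1 - 1 / (J : ℝ) ≤ 1 := by
    have : 0 < 1 / (J : ℝ) := by positivity
    linarith only [this]
  have hlev : ∀ j, (p j) ^ (1 - 1 / (J : ℝ)) ≤ 294912 * J * q j := by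
    intro j
    rcases eq_or_lt_of_le (hp j) with h0 | hpos
    · rw [← h0, Real.zero_rpow hα0.ne']
      have := hq j
      positivity
    · have hpp : 0 < p j ^ (1 / (J : ℝ)) := Real.rpow_pos_of_pos hpos _
      rw [Real.rpow_sub hpos, Real.rpow_one, div_le_iff₀ hpp]
      exact h3 j
  calc (Real.log (coveringNumber K L)) ^ (1 - 1 / (J : ℝ))
      ≤ (∑ j ∈ Finset.range M, p j) ^ (1 - 1 / (J : ℝ)) :=
        Real.rpow_le_rpow (Real.log_natCast_nonneg _) h1 hα0.le
    _ ≤ ∑ j ∈ Finset.range M, (p j) ^ (1 - 1 / (J : ℝ)) :=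
        rpow_sum_le _ _ (fun i _ => hp i) hα0 hα1
    _ ≤ ∑ j ∈ Finset.range M, 294912 * J * q j := Finset.sum_le_sum fun j _ => hlev j
    _ = 294912 * J * ∑ j ∈ Finset.range M, q j := by rw [Finset.mul_sum]
    _ ≤ 294912 * J * (2 * Real.log
          (coveringNumber (polarBody L) ((384 * J : ℝ)⁻¹ • polarBody K))) := by gcongr
    _ = _ := by ring

/-- Dimension form. -/
theorem upper_dim {K L : Set (EuclideanSpace ℝ (Fin n))} (hK : IsSymmBody K)
    (hL : IsSymmBody L) {J : ℕ} (hJ : 2 ≤ J) :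
    Real.log (coveringNumber K L) ≤ 47185920 * J * (n : ℝ) ^ (1 / (J : ℝ)) *
      Real.log (coveringNumber (polarBody L) ((384 * J : ℝ)⁻¹ • polarBody K)) := by
  obtain ⟨M, p, q, hp, hq, h1, h2, h3, h4⟩ := scales hK hL hJ
  have hJ0 : (0 : ℝ) < J := by positivity
  have hJ2 : (2 : ℝ) ≤ J := by exact_mod_cast hJ
  have hlog : Real.log (1536 * J + 1) ≤ (40 : ℝ) ^ 2 * J := by
    have := Real.log_le_sub_one_of_pos (show (0 : ℝ) < 1536 * J + 1 by positivity)
    linarith
  have hpow : ∀ j, (p j) ^ (1 / (J : ℝ)) ≤ 80 * (n : ℝ) ^ (1 / (J : ℝ)) := by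
    intro j
    have a1 : p j ≤ n * ((40 : ℝ) ^ 2 * J) :=
      (h4 j).trans (mul_le_mul_of_nonneg_left hlog (by positivity))
    have a2 := sq_rpow_inv_le hJ (c := 40) (by norm_num)
    have a3 := rpow_inv_le_two (J := J) (by omega)
    calc (p j) ^ (1 / (J : ℝ)) ≤ (n * ((40 : ℝ) ^ 2 * J)) ^ (1 / (J : ℝ)) :=
          Real.rpow_le_rpow (hp j) a1 (by positivity)
      _ = (n : ℝ) ^ (1 / (J : ℝ)) * (((40 : ℝ) ^ 2) ^ (1 / (J : ℝ)) * (J : ℝ) ^ (1 / (J : ℝ))) := by
          rw [Real.mul_rpow (by positivity) (by positivity),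
            Real.mul_rpow (by positivity) (by positivity)]
      _ ≤ (n : ℝ) ^ (1 / (J : ℝ)) * (40 * 2) := by gcongr
      _ = _ := by ring
  have hlev : ∀ j, p j ≤ (23592960 * J * (n : ℝ) ^ (1 / (J : ℝ))) * q j := by
    intro j
    have := hq j
    calc p j ≤ 294912 * J * q j * (p j) ^ (1 / (J : ℝ)) := h3 j
      _ ≤ 294912 * J * q j * (80 * (n : ℝ) ^ (1 / (J : ℝ))) :=
          mul_le_mul_of_nonneg_left (hpow j) (by positivity)
      _ = _ := by ring
  calc Real.log (coveringNumber K L) ≤ ∑ j ∈ Finset.range M, p j := h1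
    _ ≤ ∑ j ∈ Finset.range M, (23592960 * J * (n : ℝ) ^ (1 / (J : ℝ))) * q j :=
        Finset.sum_le_sum fun j _ => hlev j
    _ = (23592960 * J * (n : ℝ) ^ (1 / (J : ℝ))) * ∑ j ∈ Finset.range M, q j := by
        rw [Finset.mul_sum]
    _ ≤ (23592960 * J * (n : ℝ) ^ (1 / (J : ℝ))) * (2 * Real.log
          (coveringNumber (polarBody L) ((384 * J : ℝ)⁻¹ • polarBody K))) := by gcongr
    _ = _ := by ring

/-- Passing to the polar bodies. -/
theorem log_dual_le {K L : Set (EuclideanSpace ℝ (Fin n))} (hK : IsSymmBody K)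
    (hL : IsSymmBody L) {a : ℝ} (ha : 0 < a) :
    Real.log (coveringNumber (polarBody (a • polarBody K)) (a⁻¹ • polarBody (polarBody L))) ≤
      Real.log (coveringNumber K L) := by
  rw [polar_smul _ ha, bipolar hK, bipolar hL]
  have h1 := coveringNumber_smul_le (A := K) (B := L) (inv_ne_zero ha.ne')
    (exists_cov_of_compact hK.compact hL.zero_mem_interior)
  have hpos := coveringNumber_pos (hK.smul (inv_ne_zero ha.ne')) (hL.smul (inv_ne_zero ha.ne'))
  exact Real.log_le_log (by exact_mod_cast hpos) (by exact_mod_cast h1)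

/-- The four upper bounds with one absolute constant. -/
theorem upper_all {K L : Set (EuclideanSpace ℝ (Fin n))} (hK : IsSymmBody K)
    (hL : IsSymmBody L) {J : ℕ} (hJ : 2 ≤ J) :
    (Real.log (coveringNumber K L)) ^ (1 - 1 / (J : ℝ)) ≤
        589824 * J * Real.log (coveringNumber (polarBody L) ((384 * J : ℝ)⁻¹ • polarBody K)) ∧
    (Real.log (coveringNumber (polarBody L) ((384 * J : ℝ) • polarBody K))) ^ (1 - 1 / (J : ℝ)) ≤
        589824 * J * Real.log (coveringNumber K L) ∧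
    Real.log (coveringNumber K L) ≤ 47185920 * J * (n : ℝ) ^ (1 / (J : ℝ)) *
        Real.log (coveringNumber (polarBody L) ((384 * J : ℝ)⁻¹ • polarBody K)) ∧
    Real.log (coveringNumber (polarBody L) ((384 * J : ℝ) • polarBody K)) ≤
        47185920 * J * (n : ℝ) ^ (1 / (J : ℝ)) * Real.log (coveringNumber K L) := by
  have hJ0 : (0 : ℝ) < J := by positivity
  have ha : (0 : ℝ) < 384 * J := by positivity
  have hd := log_dual_le hK hL ha
  refine ⟨upper_pow hK hL hJ, ?_, upper_dim hK hL hJ, ?_⟩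
  · refine (upper_pow hL.polar (hK.polar.smul ha.ne') hJ).trans ?_
    gcongr
  · refine (upper_dim hL.polar (hK.polar.smul ha.ne') hJ).trans ?_
    gcongr

/-- Both inequalities of the conjecture with constants logarithmic in the dimension. -/
theorem log_duality (hn : 1 ≤ n) {K L : Set (EuclideanSpace ℝ (Fin n))} (hK : IsSymmBody K)
    (hL : IsSymmBody L) {a b : ℝ} (ha : 1536 * Real.log (1 + n) ≤ a)
    (hb : 600000000 * Real.log (1 + n) ≤ b) :
    1 / b * Real.log (coveringNumber (polarBody L) (a • polarBody K)) ≤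
        Real.log (coveringNumber K L) ∧
      Real.log (coveringNumber K L) ≤
        b * Real.log (coveringNumber (polarBody L) (a⁻¹ • polarBody K)) := by
  have hn1 : (1 : ℝ) ≤ n := by exact_mod_cast hn
  set ℓ := Real.log (1 + n) with hℓ
  have hl2 := Real.log_two_gt_d9
  have hℓ2 : Real.log 2 ≤ ℓ := Real.log_le_log (by norm_num) (by linarith)
  have hℓ0 : 0 < ℓ := by linarith
  set J : ℕ := ⌈ℓ⌉₊ + 1 with hJdef
  have hc1 : 1 ≤ ⌈ℓ⌉₊ := Nat.one_le_iff_ne_zero.2 (Nat.ceil_pos.2 hℓ0).ne'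
  have hJ : 2 ≤ J := by omega
  have hJ0 : (0 : ℝ) < J := by positivity
  have hJℓ : ℓ ≤ J := by
    have := Nat.le_ceil ℓ
    rw [hJdef]; push_cast; linarith
  have hJ4 : (J : ℝ) ≤ 4 * ℓ := by
    have := Nat.ceil_lt_add_one hℓ0.le
    rw [hJdef]; push_cast; linarith
  have hnJ : (n : ℝ) ^ (1 / (J : ℝ)) ≤ 3 := by
    have h1 : Real.log n ≤ ℓ := Real.log_le_log (by linarith) (by linarith)
    rw [Real.rpow_def_of_pos (by linarith)]
    have h2 : Real.log n * (1 / (J : ℝ)) ≤ 1 := by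
      rw [mul_one_div, div_le_one hJ0]; linarith
    have h3 := Real.exp_one_lt_d9
    calc Real.exp (Real.log n * (1 / (J : ℝ))) ≤ Real.exp 1 := Real.exp_le_exp.2 h2
      _ ≤ 3 := by linarith
  have hbJ : 47185920 * J * (n : ℝ) ^ (1 / (J : ℝ)) ≤ b := by
    calc 47185920 * J * (n : ℝ) ^ (1 / (J : ℝ)) ≤ 47185920 * (4 * ℓ) * 3 := by gcongr
      _ ≤ b := by linarith
  have hb0 : 0 < b := by linarith
  have hs : (0 : ℝ) < 384 * J := by positivity
  have haJ : (384 * J : ℝ) ≤ a := by linarith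
  have ha0 : 0 < a := by linarith
  obtain ⟨-, -, h3, h4⟩ := upper_all hK hL hJ
  constructor
  · rw [one_div, inv_mul_le_iff₀ hb0]
    calc Real.log (coveringNumber (polarBody L) (a • polarBody K))
        ≤ Real.log (coveringNumber (polarBody L) ((384 * J : ℝ) • polarBody K)) :=
          log_covering_anti hL.polar hK.polar hs haJ
      _ ≤ _ := h4
      _ ≤ b * Real.log (coveringNumber K L) :=
          mul_le_mul_of_nonneg_right hbJ (Real.log_natCast_nonneg _)
  · calc Real.log (coveringNumber K L) ≤ _ := h3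
      _ ≤ b * Real.log (coveringNumber (polarBody L) ((384 * J : ℝ)⁻¹ • polarBody K)) :=
          mul_le_mul_of_nonneg_right hbJ (Real.log_natCast_nonneg _)
      _ ≤ b * Real.log (coveringNumber (polarBody L) (a⁻¹ • polarBody K)) :=
          mul_le_mul_of_nonneg_left (log_covering_anti hL.polar hK.polar (inv_pos.2 ha0)
            (inv_anti₀ hs haJ)) hb0.le

end Vale.Agent.P126.N
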